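import Vale.Agent.P283R.Et.Dn
import Vale.Agent.P283R.Tp.Kap
import Vale.Agent.P283R.Qb

/-!
# P283R: the tier statements for etale neighbourhoods
-/

set_option linter.all false

open Set
open Vale.Agent.P297Z

noncomputable section

namespace Vale.Agent.P283R.Et

open Vale.Agent.P287D

variable {K K' : Type} [Field K] [Field K'] [Algebra ℂ K] [Algebra ℂ K'] {d : ℕ}
  {A : Subalgebra ℂ K} {χ : A →ₐ[ℂ] ℂ} {g : K} {m N : ℕ}

/-- the conclusion of the tier statements -/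
def Con (d N : ℕ) (A : Subalgebra ℂ K) (χ : A →ₐ[ℂ] ℂ) (m : ℕ) (g : K) : Prop :=
  ∃ φ : K, φ ≠ 0 ∧ ∀ P, Thr A χ P →
    (Prm A P → (m : ℝ)⁻¹ * dv g P ≤ (N : ℝ)⁻¹ * dv φ P) ∧ -1 < dsc d ((N : ℝ)⁻¹ • dv φ) P

theorem Con.two (h : Con d N A χ m g) : Con d (2 * N) A χ m g := by
  obtain ⟨φ, φ0, h⟩ := h
  have e : ((2 * N : ℕ) : ℝ)⁻¹ • dv (φ ^ 2) = (N : ℝ)⁻¹ • dv φ := funext fun P => by
    simp only [Pi.smul_apply, dv, smul_eq_mul, Pl.ord_pow]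
    push_cast
    ring
  refine ⟨φ ^ 2, pow_ne_zero _ φ0, fun P p => ⟨fun q => ?_, e ▸ (h P p).2⟩⟩
  exact ((h P p).1 q).trans_eq (congrFun e P).symm

variable [Algebra K K'] [IsScalarTower ℂ K K'] {A' : Subalgebra ℂ K'} {χ' : A' →ₐ[ℂ] ℂ}

/-- `J` is the ratio of the chosen canonical forms -/
def Rat (d : ℕ) (K : Type) [Field K] [Algebra ℂ K] [Algebra K K'] (J : K') : Prop :=
  J ≠ 0 ∧ ∃ y : Fin d → K, Frm y ∧ cn K d = kap y ∧
    ∀ P', cn K' d P' = kap (fun i => algebraMap K K' (y i)) P' + P'.ord J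

theorem exists_rat (hK : FF K d) (hK' : FF K' d) : ∃ J : K', Rat d K J := by
  obtain ⟨y, D, hy, e⟩ := Cb.exists_cn hK
  obtain ⟨y', D', hy', e'⟩ := Cb.exists_cn hK'
  obtain ⟨E, hE⟩ := (ram d K K' (IsScalarTower.toAlgHom ℂ K K') y hK hK' ⟨D, hy⟩).1
  obtain ⟨a, b, -⟩ := kap' d K' _ y' E D' hE hy'
  exact ⟨_, a, y, ⟨D, hy⟩, e, fun P' => e' ▸ b P'⟩

theorem Rat.dsc_up {J : K'} (h : Rat d K J) (hK : FF K d) (hK' : FF K' d) (hm : 0 < m) (hg : g ≠ 0)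
    {P' : Pl K'} {P : Pl K} (l : Lies (algebraMap K K') P' P) :
    1 + dsc d ((m : ℝ)⁻¹ • dv (algebraMap K K' g * J ^ m)) P' =
      P'.ord (algebraMap K K' P.t) * (1 + dsc d ((m : ℝ)⁻¹ • dv g) P) := by
  obtain ⟨J0, y, hy, e, e'⟩ := h
  have m0 : (m : ℝ) ≠ 0 := Nat.cast_ne_zero.2 hm.ne'
  rw [← Tq.ld_up ram hK hK' hy e m g l]
  simp only [ld, dsc, Pi.sub_apply, Pi.smul_apply, dv, smul_eq_mul, e',
    Pl.ord_mul _ ((map_ne_zero _).2 hg) (pow_ne_zero m J0), Pl.ord_pow]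
  push_cast
  field_simp
  ring

/-- **descent** -/
theorem Et3.down (h : Et3 A χ A' χ') (hA : Aff d A) (hn : IsIntegrallyClosed A) (hA' : Aff d A')
    (hn' : IsIntegrallyClosed A') {J : K'} (hJ : Rat d K J) (hm : 0 < m) (hg : g ≠ 0) (hN : 2 ≤ N)
    (c : Con d N A' χ' m (algebraMap K K' g * J ^ m)) : Con d N A χ m g := by
  classical
  obtain ⟨φ₁, φ0, H⟩ := c
  obtain ⟨J0, y, hy, e, e'⟩ := hJ
  have m0 : (0 : ℝ) < m := Nat.cast_pos.2 hm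
  have N0 : (0 : ℝ) < N := Nat.cast_pos.2 (by omega)
  have g1 := (map_ne_zero (algebraMap K K')).2 hg
  have JN := pow_ne_zero N J0
  let φ := φ₁ / J ^ N
  have φ1 : φ ≠ 0 := div_ne_zero φ0 JN
  have o : ∀ P' : Pl K', (P'.ord φ : ℝ) = P'.ord φ₁ - N * P'.ord J := fun P' => by
    rw [Pl.ord_div _ φ0 JN, Pl.ord_pow]
    push_cast
    rfl
  obtain ⟨s, s0, s1, s2⟩ := gens (χ := χ) hA hn (c := fun R => -⌈(N * (R.ord g / m) : ℝ)⌉)
    (((hrt d K A hA hn).1 g).subset fun R ⟨a, b⟩ => ⟨a, fun z => b (by simp [z])⟩)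
  obtain ⟨n, ψ, x, x0, x1, x2⟩ := h.col s φ s0 (fun b hb => (s1 b hb).1) fun b hb =>
    har hA' hn' fun P' p q => by
      obtain ⟨P, l⟩ := Pb.down hA.ff hA'.ff P'
      obtain ⟨a1, a2⟩ := h.dn P' P l p
      obtain ⟨a2, a3⟩ := a2 q
      have b1 := (map_ne_zero (algebraMap K K')).2 (s1 b hb).1
      have b2 := (s1 b hb).2 P a1 a2
      have b3 := (H P' p).1 q
      simp only [dv, Pl.ord_mul _ g1 (pow_ne_zero m J0), Pl.ord_pow, l.ord g, a3, one_mul] at b3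
      have b4 : ⌈(N * (P.ord g / m) : ℝ)⌉ ≤ P'.ord φ := Int.ceil_le.2 (by
        rw [o]
        push_cast at b3
        rw [mul_add, inv_mul_cancel_left₀ m0.ne', le_inv_mul_iff₀ N0] at b3
        rw [div_eq_inv_mul]
        linarith)
      rw [← Pl.ord_nonneg_iff _ (mul_ne_zero φ1 b1), Pl.ord_mul _ φ1 b1, l.ord b, a3, one_mul]
      omega
  have ld1 : ∀ (f : K) (P : Pl K), ld y N f P = 1 + dsc d ((N : ℝ)⁻¹ • dv f) P := fun f P => by
    simp only [ld, dsc, e, Pi.sub_apply, Pi.smul_apply, dv, smul_eq_mul]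
    ring
  have tp : ∀ P, Thp A {RingHom.ker χ} P ↔ Thr A χ P := fun P =>
    ⟨fun ⟨a, q, b, c⟩ => ⟨a, fun f z => by rw [b] at c; exact c f z⟩,
      fun ⟨a, b⟩ => ⟨a, _, rfl, b⟩⟩
  obtain ⟨f, f1, f0, f2⟩ := ber d N K A {RingHom.ker χ} y (Finset.univ.image ψ) hA.ff hA.fg hy hN
    (by
      by_contra z
      simp only [not_exists, not_and, not_not] at z
      exact φ1 (x1.trans (Finset.sum_eq_zero fun j _ => by
        rw [z _ (Finset.mem_image_of_mem _ (Finset.mem_univ j)), map_zero, zero_mul])))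
    fun P p => by
      obtain ⟨P', l, p'⟩ := h.up P ((tp P).1 p)
      obtain ⟨j, j0, j1⟩ := exists_le (P := P') (fun j => thr_lo p' (x0 j)) (x1 ▸ φ1)
      refine ⟨ψ j, Finset.mem_image_of_mem _ (Finset.mem_univ j), (map_ne_zero _).1 j0, ?_⟩
      have e0 : (0 : ℝ) < P'.ord (algebraMap K K' P.t) := by exact_mod_cast l.e_pos
      rw [ld1, ← mul_pos_iff_of_pos_left e0, ← Tq.ld_up ram hA.ff hA'.ff hy e N (ψ j) l]
      have b1 := (H P' p').2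
      have b2 : (P'.ord (algebraMap K K' (ψ j)) : ℝ) ≤ P'.ord φ := by
        rw [← x1] at j1
        exact_mod_cast j1
      have b3 := div_le_div_of_nonneg_right b2 N0.le
      simp only [dsc, Pi.sub_apply, Pi.smul_apply, dv, smul_eq_mul, e'] at b1
      rw [o, sub_div, mul_div_cancel_left₀ _ N0.ne', div_eq_inv_mul (P'.ord φ₁ : ℝ)] at b3
      unfold ld
      linarith
  refine ⟨f, f0, fun P p => ⟨fun q => ?_, by linarith [ld1 f P ▸ f2 P ((tp P).2 p)]⟩⟩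
  obtain ⟨b, hb, b1⟩ := s2 P p q
  have b2 : f ∈ P.sub (P.ord b) := (Submodule.span_le.2 fun z hz => by
    obtain ⟨j, -, rfl⟩ := Finset.mem_image.1 hz
    refine P.mem_sub.2 (or_iff_not_imp_left.2 fun j0 => ?_)
    have := Pl.ord_nonneg_of_mem P.toPlace (thr_lo p (x2 j b hb))
    rw [Pl.ord_mul _ j0 (s1 b hb).1] at this
    exact_mod_cast this) f1
  have b3 := (P.mem_sub.1 b2).resolve_left f0
  have b4 := Int.le_ceil (N * (P.ord g / m) : ℝ)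
  rw [b1] at b3
  push_cast at b3
  simp only [dv]
  rw [le_inv_mul_iff₀ N0, ← div_eq_inv_mul]
  linarith

/-- **the etale layer**: the pair is pulled back, the complement descends -/
theorem etd (h : Etl A χ A' χ') (hA : Aff d A) (hn : IsIntegrallyClosed A) (hA' : Aff d A')
    (hn' : IsIntegrallyClosed A') (hm : 0 < m) (hg : g ≠ 0) : ∃ g' : K', g' ≠ 0 ∧
      (∀ P', Thr A' χ' P' → ∃ P, Lies (algebraMap K K') P' P ∧ Thr A χ P ∧
        (∀ ε : ℝ, 0 ≤ ε → ε ≤ 1 + dsc d ((m : ℝ)⁻¹ • dv g) P →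
          ε ≤ 1 + dsc d ((m : ℝ)⁻¹ • dv g') P') ∧
        (Prm A' P' → Prm A P ∧ dsc d ((m : ℝ)⁻¹ • dv g') P' = dsc d ((m : ℝ)⁻¹ • dv g) P)) ∧
      ∀ N, 1 ≤ N → Con d N A' χ' m g' → Con d (2 * N) A χ m g := by
  obtain ⟨J, hJ⟩ := exists_rat hA.ff hA'.ff
  have h3 := h.et3 hA hA'.ff
  refine ⟨_, mul_ne_zero ((map_ne_zero _).2 hg) (pow_ne_zero m hJ.1), fun P' p => ?_,
    fun N hN c => h3.down hA hn hA' hn' hJ hm hg (by omega) c.two⟩
  obtain ⟨P, l⟩ := Pb.down hA.ff hA'.ff P'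
  obtain ⟨a1, a2⟩ := h3.dn P' P l p
  have e := hJ.dsc_up hA.ff hA'.ff hm hg l
  refine ⟨P, l, a1, fun ε e0 e1 => ?_, fun q => ⟨(a2 q).1, ?_⟩⟩
  · have e2 : (1 : ℝ) ≤ P'.ord (algebraMap K K' P.t) := by exact_mod_cast l.e_pos
    rw [e]
    nlinarith
  · rw [(a2 q).2] at e
    push_cast at e
    linarith

end Vale.Agent.P283R.Et
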