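import Vale.Agent.P283R.Et.Glue
import Vale.Agent.P283R.All

/-!
# P283R: bounded klt complements over quotient singularities
-/

namespace Vale.Agent.P283R.Et

theorem qe0 : Stm.QE (· = 0) := glueE Fin.qa0

end Vale.Agent.P283R.Et
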