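import Vale.Agent.P283R.Et.Top
import Vale.Agent.P283R.Br.Lc
import Vale.Agent.P283R.Br.Idn
import Vale.Agent.P287D.Hd.Cm

/-!
# P283R: etale neighbourhoods of a point of the base
-/

set_option linter.all false

open Set CategoryTheory AlgebraicGeometry
open Vale.Agent.P289 Vale.Agent.P289.H219 Vale.Agent.P270L Vale.Agent.P283M.Am Vale.Agent.P299.G

noncomputable section

namespace Vale.Agent.P283R.Et

open Vale.Agent.P287D Vale.Agent.P283M Vale.Agent.P283M.Br Vale.Agent.P283M.Stm.Var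
open Vale.Agent.P283M.Stm (Contraction Pair HasKltComplement)
open Vale.Agent.P297Z Vale.Agent.P283R.Br

theorem Etl.ff {K K' : Type} [Field K] [Field K'] [Algebra ℂ K] [Algebra ℂ K'] [Algebra K K']
    [IsScalarTower ℂ K K'] {d : ℕ} {A : Subalgebra ℂ K} {χ : A →ₐ[ℂ] ℂ} {A' : Subalgebra ℂ K'}
    {χ' : A' →ₐ[ℂ] ℂ} (h : Etl A χ A' χ') (hK : FF K d) (fr : ∀ x : K', ∃ s t : A', x = s / t) :
    FF K' d := by
  obtain ⟨O, O', _, _, _, _, j, j', f, hj, hj', e, f1, f2, f3, f4, r, r'⟩ := h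
  let _ := j.toAlgebra
  let _ := j'.toAlgebra
  let _ := f.toAlgebra
  let _ : Algebra O K' := (j'.comp f).toAlgebra
  have : IsScalarTower O K K' := .of_algebraMap_eq e
  have : IsScalarTower O O' K' := .of_algebraMap_eq fun _ => rfl
  have : Algebra.FormallyUnramified O O' := f2
  have : Algebra.EssFiniteType O O' := f3
  have : FaithfulSMul O' K' := (faithfulSMul_iff_algebraMap_injective O' K').2 hj'
  have : IsFractionRing O' K' := IsFractionRing.of_field O' K' fun x => by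
    obtain ⟨s, t, e⟩ := fr x
    obtain ⟨a, ha⟩ := r'.ge (lo_self s)
    obtain ⟨b, hb⟩ := r'.ge (lo_self t)
    exact ⟨a, b, by rw [e, ← ha, ← hb]; rfl⟩
  have := Algebra.FormallyUnramified.of_isLocalization (Rₘ := K') (nonZeroDivisors O')
  have := Algebra.EssFiniteType.of_isLocalization K' (nonZeroDivisors O')
  have := Algebra.FormallyUnramified.comp O O' K'
  have := Algebra.EssFiniteType.comp O O' K'
  have := Algebra.FormallyUnramified.of_restrictScalars O K K'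
  have := Algebra.EssFiniteType.of_comp O K K'
  have : Module.Finite K K' := Algebra.FormallyUnramified.finite_of_free K K'
  exact Hd.ff_up hK

variable {X Z W : Stm.Var} {f : X.X ⟶ Z.X} {p : Z.K ≃+* X.K} {e : W.X ⟶ Z.X} {ι : Z.K →+* W.K}

/-- `ι` is the pull back of the rational functions -/
def Pe (e : W.X ⟶ Z.X) (ι : Z.K →+* W.K) : Prop := ∀ (y : Pt W.X) (a : St Z.X (y.map e)),
  ι (toRat a) = toRat (val (e.stalkMap y) a)

theorem exists_pe (e : W.X ⟶ Z.X) [Flat e] : ∃ ι, Pe e ι := by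
  let η := genericPoint W.X
  have inj : Function.Injective (e.stalkMap η).hom := by
    algebraize [(e.stalkMap η).hom]
    have : Module.Flat _ _ := Flat.stalkMap e η
    have : IsLocalHom (algebraMap (Z.X.presheaf.stalk (e η)) (W.X.presheaf.stalk η)) :=
      inferInstanceAs (IsLocalHom (e.stalkMap η).hom)
    have := Module.FaithfullyFlat.of_flat_of_isLocalHom
      (A := Z.X.presheaf.stalk (e η)) (B := W.X.presheaf.stalk η)
    exact FaithfulSMul.algebraMap_injective (Z.X.presheaf.stalk (e η)) (W.X.presheaf.stalk η)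
  have inj' : Function.Injective ((toK η).comp (e.stalkMap η).hom) := (toK_injective η).comp inj
  refine ⟨IsFractionRing.lift inj', fun y a => ?_⟩
  have s : η ⤳ y := genericPoint_specializes y
  have h1 := toK_toStalk (s.map e.continuous) a
  have h2 := toK_toStalk s ((e.stalkMap y).hom a)
  refine (congrArg _ h1.symm).trans ((IsFractionRing.lift_algebraMap inj' _).trans
    (Eq.trans (congrArg (toK η) ?_) h2))
  exact Scheme.Hom.stalkSpecializes_stalkMap_apply e η y s a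

theorem Pe.cst (h : Pe e ι) (he : e ≫ Z.str = W.str) (c : ℂ) :
    ι (algebraMap ℂ Z.K c) = algebraMap ℂ W.K c := by
  let y := genericPoint W.X
  rw [const_germ Z (e y), const_germ W y, ← he]
  refine (h y _).trans (congrArg (toK y) ?_)
  exact Scheme.Hom.germ_stalkMap_apply e ⊤ y trivial _

theorem Pe.reg (h : Pe e ι) {y : Pt W.X} {a : Z.K} (ha : RegAt a (Pt.map e y)) :
    RegAt (ι a) y := by
  obtain ⟨a, rfl⟩ := ha
  exact ⟨_, (h y a).symm⟩

theorem Pe.un (h : Pe e ι) {y : Pt W.X} {a : Z.K} (ha : RegAt a (Pt.map e y)) :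
    UnAt (ι a) y ↔ UnAt a (Pt.map e y) := by
  obtain ⟨a, rfl⟩ := ha
  rw [h y a]
  exact S.un_toK.trans ((isUnit_map_iff (e.stalkMap y).hom a).trans S.un_toK.symm)

theorem closed_pt (e : W.X ⟶ Z.X) [Etale e] {w : Pt W.X}
    (hz : IsClosed ({w.map e} : Set (Pt Z.X))) : IsClosed ({w} : Set (Pt W.X)) := by
  have : LocallyQuasiFinite e := ⟨fun {U} hU {V} hV h => by
    have k := e.etale_appLE hU hV h
    algebraize [(e.appLE U V h).hom]
    exact (inferInstance : Algebra.QuasiFinite Γ(Z.X, U) Γ(W.X, V))⟩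
  have d := e.isDiscrete_preimage_singleton (e w)
  have c : IsClosed (e ⁻¹' {e w}) := hz.preimage e.continuous
  have := d.to_subtype
  have k := c.isClosedEmbedding_subtypeVal.isClosedMap {⟨w, rfl⟩} (isClosed_discrete _)
  rwa [image_singleton] at k

variable {V : Z.X.Opens} {z : Pt Z.X} {A : Subalgebra ℂ X.K} {χ : A →ₐ[ℂ] ℂ}

theorem bs_lo (h : Bs f p V z A χ) (hV : IsAffineOpen V) (hz : z ∈ V) (g : X.K) :
    g ∈ Lo A (RingHom.ker χ) ↔ RegAt (p.symm g) z := by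
  refine ⟨?_, fun k => ?_⟩
  · rintro ⟨s, t, ht, rfl⟩
    rw [map_div₀, div_eq_mul_inv]
    exact reg_mul ((h.memZ _).1 (by rw [p.apply_symm_apply]; exact s.2) z hz) ((h.uz t).1 ht).2.2
  · obtain ⟨a, ha, b, hb, u, e⟩ := h.frac hV hz k
    exact ⟨⟨a, ha⟩, ⟨b, hb⟩, (h.uz ⟨b, hb⟩).2 u, e⟩

theorem bs_fr (h : Bs f p V z A χ) (hV : IsAffineOpen V) (hz : z ∈ V) (g : X.K) :
    ∃ s t : A, g = s / t :=
  let ⟨a, ha, b, hb, _, e⟩ := h.frK hV hz g
  ⟨⟨a, ha⟩, ⟨b, hb⟩, e⟩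

theorem bs_nor (h : Bs f p V z A χ) (hV : IsAffineOpen V) (hz : z ∈ V) :
    IsIntegrallyClosed A := by
  have := IsFractionRing.of_field A X.K (bs_fr h hV hz)
  refine (isIntegrallyClosed_iff X.K).2 fun {g} hg => ⟨⟨g, (h.mem g).2 fun x hx => ?_⟩, rfl⟩
  let q : X.X.presheaf.stalk x ≃+* lr x := RingEquiv.ofBijective (toK x).rangeRestrict
    ⟨fun a b c => toK_injective x (congrArg Subtype.val c), (toK x).rangeRestrict_surjective⟩
  let φ : A →+* lr x := A.val.toRingHom.codRestrict _ fun a => (h.mem _).1 a.2 x hx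
  have := hg.map_of_comp_eq (q.symm.toRingHom.comp φ) (RingHom.id X.K)
    (RingHom.ext fun a => congrArg Subtype.val (q.apply_symm_apply (φ a)))
  exact IsIntegrallyClosed.isIntegral_iff.1 this

theorem etl [Etale e] (hι : Pe e ι) {w : Pt W.X} (h : Bs f p V (w.map e) A χ)
    (hV : IsAffineOpen V) (hz : w.map e ∈ V) {U : W.X.Opens} {A' : Subalgebra ℂ W.K}
    {χ' : A' →ₐ[ℂ] ℂ} (h' : Bs (𝟙 W.X) (RingEquiv.refl W.K) U w A' χ') (hU : IsAffineOpen U)
    (hw : w ∈ U) : letI := (ι.comp p.symm.toRingHom).toAlgebra; Etl A χ A' χ' :=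
  ⟨Z.X.presheaf.stalk (e w), W.X.presheaf.stalk w, _, _, inferInstance, inferInstance,
    p.toRingHom.comp (toK _), toK w, (e.stalkMap w).hom, p.injective.comp (toK_injective _),
    toK_injective w, fun a => ((congrArg ι (p.symm_apply_apply _)).trans (hι w a)).symm,
    Flat.stalkMap e w, FormallyUnramified.stalkMap e w, LocallyOfFiniteType.stalkMap e w,
    inferInstance, Set.ext fun g => Iff.trans (exists_congr fun a =>
      (p.symm_apply_eq.trans eq_comm).symm.trans eq_comm) (bs_lo h hV hz g).symm,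
    Set.ext fun g => (bs_lo h' hU hw g).symm⟩

/-- **the factored glue for an etale neighbourhood** `(W, w)` of `z` -/
theorem coreE {d m : ℕ} {g : X.K} {ε : ℝ} {N : ℕ} {ω : DForm ℂ X.K d} {B : X.QDiv} {w : Pt W.X}
    {U : W.X.Opens} {A' : Subalgebra ℂ W.K} {χ' : A' →ₐ[ℂ] ℂ} [Etale e] (hd : 1 ≤ d) (hε : 0 < ε)
    (hdim : dimension X.str = d) (hω : ω.Nonzero) (hB : Pair (ε ≤ ·) ⊤ ω B) (hf : Contraction f)
    (hp : Pb f p) (m0 : 0 < m)
    (hg : ∀ x : Pt X.X, x.map f = w.map e → LocalEq (logCan ω B) m g x)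
    (hz : IsClosed ({w.map e} : Set (Pt Z.X))) (he : e ≫ Z.str = W.str) (hU : IsAffineOpen U)
    (wU : w ∈ U) (bs' : Bs (𝟙 W.X) (RingEquiv.refl W.K) U w A' χ') (N1 : 1 ≤ N)
    (H : FF W.K d → ∀ g : W.K, g ≠ 0 → (∀ P, Thr A' χ' P → ε ≤ 1 + dsc d ((m : ℝ)⁻¹ • dv g) P) →
      (∀ P, Thr A' χ' P → Prm A' P → ∃ (E : X.PrimeDiv) (y : W.PrimeDiv) (y₀ : Z.PrimeDiv),
        E.1.map f = y₀.1 ∧ y.1.map e = y₀.1 ∧ y.1 ⤳ w ∧ (∀ a, ord a y = P.ord a) ∧
        dsc d ((m : ℝ)⁻¹ • dv g) P = -(B E : ℝ)) → Con d N A' χ' m g) :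
    HasKltComplement f ω B (2 * N) (w.map e) := by
  obtain ⟨_, ⟨V, hV, rfl⟩, zV, -⟩ :=
    Z.X.isBasis_affineOpens.exists_subset_of_mem_open (Set.mem_univ (e w)) isOpen_univ
  obtain ⟨A, χ, bs⟩ := exists_bs hf hp hV zV hz
  obtain ⟨ι, hι⟩ := exists_pe e
  let _ := (ι.comp p.symm.toRingHom).toAlgebra
  have : IsScalarTower ℂ X.K W.K := .of_algebraMap_eq fun c => by
    change _ = ι (p.symm _)
    rw [← hp.cst hf.1, p.symm_apply_apply, hι.cst he]
  have et := etl hι bs hV zV bs' hU wU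
  have hK := ffd X _ hdim
  have hK' := et.ff hK (bs_fr bs' hU wU)
  refine core hd hdim hω hB hf hp m0 hg hV zV bs (by omega) fun g g0 h1 h2 => ?_
  obtain ⟨g', g0', k1, k2⟩ := etd et ⟨hK, bs.fg, bs_fr bs hV zV⟩ (bs_nor bs hV zV)
    ⟨hK', bs'.fg, bs_fr bs' hU wU⟩ (bs_nor bs' hU wU) m0 g0
  refine k2 N N1 (H hK' g' g0' (fun P' a => ?_) fun P' a b => ?_)
  · obtain ⟨P, -, c1, c2, -⟩ := k1 P' a
    exact c2 ε hε.le (h1 P c1)
  · obtain ⟨P, l, c1, -, c2⟩ := k1 P' a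
    obtain ⟨E, e1, e2, e3⟩ := h2 P c1 (c2 b).1
    obtain ⟨x, x1, x2⟩ := bs'.ctr P' a.1
    obtain ⟨y, y1, y2, y3⟩ := bs'.down ctr_id pb_id x1 x2 a b
    obtain rfl : x = y.1 := y1
    obtain ⟨y₀, y4, -⟩ := bs.down hf hp e1 e2 c1 (c2 b).1
    refine ⟨E, y, y₀, y4, Eq.trans ?_ y4, y2, y3, (c2 b).2.trans e3⟩
    have yV : e y.1 ∈ V := (y2.map e.continuous).mem_open V.isOpen zV
    have u : ∀ s ∈ reg V, UnAt s (f E.1) ↔ UnAt s (e y.1) := fun s hs => by
      have r1 : RegAt s (f E.1) := mem_reg.1 hs _ e1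
      have r2 : RegAt s (e y.1) := mem_reg.1 hs _ yV
      have rd := Tq.rd_lies l (e2 _ (hp.reg r1)).1
      change P'.rd (ι (p.symm (p s))) = 0 ↔ _ at rd
      rw [p.symm_apply_apply] at rd
      refine ⟨fun k => (hι.un r2).1 (un_of_rd x2 (hι.reg r2) (mt rd.1 (e2.rd
        ⟨(map_ne_zero p).2 k.1, hp.reg r1, map_inv₀ p s ▸ hp.reg k.2.2⟩))), fun k =>
          ⟨k.1, r1, hp.un r1 (un_of_rd e2 (hp.reg r1) (mt rd.2 (x2.rd ((hι.un r2).2 k))))⟩⟩
    exact ((spec_of_un hV e1 yV fun s hs => (u s hs).1).antisymm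
      (spec_of_un hV yV e1 fun s hs => (u s hs).2)).eq

end Vale.Agent.P283R.Et
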