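import Vale.Agent.P283R.Et.Br
import Vale.Agent.P283R.Br.Lc2
import Vale.Agent.P283R.StmE

/-!
# P283R: from the tier to the scheme statement, etale neighbourhoods
-/

set_option linter.all false

open Set CategoryTheory AlgebraicGeometry
open Vale.Agent.P289 Vale.Agent.P289.H219 Vale.Agent.P270L Vale.Agent.P283M.Am Vale.Agent.P299.G

noncomputable section

namespace Vale.Agent.P283R.Et

open Vale.Agent.P287D Vale.Agent.P283M Vale.Agent.P283M.Br Vale.Agent.P283M.Stm.Var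
open Vale.Agent.P283M.Stm (Contraction Pair HasKltComplement)
open Vale.Agent.P297Z Vale.Agent.P283R.Br

/-- **the glue**, etale locally a quotient -/
theorem glueE {s : ℕ → Prop} (q : Qa s) : Stm.QE s := by
  intro d hd ε hε R hR
  obtain ⟨N, N1, hN⟩ := q d (∏ a ∈ R, a.den) hd
    (Finset.prod_pos (s := R) fun a _ => Rat.den_pos a) ε hε
  refine ⟨2 * N, by omega, fun X Z f ω B z c hdim hω hB hR' hf ⟨p, hp⟩ ⟨m, g, m0, hg⟩ hz hc
    ⟨W, e, w, ⟨_, he, hw, wc⟩, U, S, _, _, hU, wU, l⟩ => ?_⟩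
  subst hw
  obtain ⟨A, χ, bs⟩ := exists_bs ctr_id pb_id hU wU wc
  obtain ⟨L, _, _, _, _, q, F, G, hq⟩ := quo hU wU l (fun _ => rfl) bs
  refine coreE hd hε hdim hω hB hf hp m0 hg hz he hU wU bs N1 fun hK g g0 h1 h2 =>
    hN W.K L S c q F G A χ m g hc hK hq m0 g0 h1 fun P hP k => ?_
  obtain ⟨E, -, -, -, -, -, -, e⟩ := h2 P hP k
  rw [e]
  by_cases z : B E = 0
  · exact ⟨0, by rw [z]; simp⟩
  obtain ⟨j, hj⟩ := den R (hR' _ z) (hB.1 _ trivial)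
  exact ⟨j, by rw [mul_neg, neg_inj]; exact_mod_cast hj⟩

/-- **the glue** for a given index, etale locally a quotient of a complete intersection -/
theorem glueEB {c d Q N : ℕ} {ε : ℝ} (hd : 1 ≤ d) (hε : 0 < ε) (N1 : 1 ≤ N) (hN : Bd c d Q ε N)
    (X Z : Stm.Var) (f : X.X ⟶ Z.X) (ω : DForm ℂ X.K d) (B : X.QDiv) (z : Pt Z.X)
    (D : Z.PrimeDiv → ℚ) (hdim : dimension X.str = d) (hω : ω.Nonzero)
    (hB : Pair (ε ≤ ·) ⊤ ω B) (hf : Contraction f) (hp : P283R.Stm.Birational f)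
    (hg : ∃ m g, 0 < m ∧ ∀ x : Pt X.X, x.map f = z → LocalEq (logCan ω B) m g x)
    (hz : IsClosed ({z} : Set (Pt Z.X)))
    (hD : ∀ (E : X.PrimeDiv) (y : Z.PrimeDiv), E.1.map f = y.1 → D y = B E)
    (hc : P283R.Stm.EtCut c Q Z z D) : HasKltComplement f ω B (2 * N) z := by
  obtain ⟨p, hp⟩ := hp
  obtain ⟨m, g, m0, hg⟩ := hg
  obtain ⟨W, π, x, D', ⟨_, he, rfl, wc⟩, hD', U, r, a, S, _, _, hU, zU, r0, ha, I, G, i, l, s, u,
    e⟩ := hc
  obtain ⟨A, χ, bs⟩ := exists_bs ctr_id pb_id hU zU wc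
  have := l.prime
  let _ := alg (RingEquiv.refl W.K) i
  have := alg_tower (p := RingEquiv.refl W.K) i fun _ => rfl
  obtain ⟨F, hq⟩ := quo' hU zU l bs
  obtain ⟨y, hy, ov⟩ := exists_over hq χ
  obtain ⟨s, rfl⟩ := Ideal.Quotient.mk_surjective s
  obtain ⟨v, hv⟩ := Ideal.Quotient.mk_surjective u.1
  obtain ⟨w, hw⟩ := Ideal.Quotient.mk_surjective u⁻¹.1
  have one : (1 : S) ∉ y := (Ideal.ne_top_iff_one _).1 hy.ne_top
  refine coreE hd hε hdim hω hB hf hp m0 hg hz he hU zU bs N1 fun hK g g0 h1 h2 =>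
    hN W.K _ S (qm I) F G A χ m g hK hq m0 g0 h1
      ⟨r, a, y, s, v, 1, r0, ha.1, hy, ov, fun k => one ?_, one, ?_, fun P hP k => ?_⟩
  · have : 1 - v * w ∈ y := ov 0 _ (by
      change _ = algebraMap (S ⧸ I) _ (Ideal.Quotient.mk I _)
      rw [map_sub, map_mul, hv, hw, u.mul_inv, map_one, sub_self, map_zero]
      exact map_zero _) (map_zero _)
    simpa using add_mem this (y.mul_mem_right w k)
  · change i a ^ Q * _ = _
    rw [e, map_one, mul_one, map_mul, map_pow, ← hv]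
    rfl
  · obtain ⟨E, y, y₀, e0, e1, e2, e3, e⟩ := h2 P hP k
    rw [Pi.neg_apply, e, neg_neg, ← e3, ← hD E y₀ e0, ← hD' y y₀ e1]
    exact_mod_cast ha.2 y e2

/-- **the glue**, `n` independent of the codimension -/
theorem glueEc {s : ℕ → Prop}
    (q : ∀ d Q : ℕ, 1 ≤ d → 1 ≤ Q → ∀ ε : ℝ, 0 < ε → ∃ N : ℕ, 1 ≤ N ∧ ∀ c, s c → Bd c d Q ε N) :
    Stm.QEc s := fun d Q hd hQ ε hε =>
  let ⟨N, N1, hN⟩ := q d Q hd hQ ε hε
  ⟨2 * N, by omega, fun X Z f ω B z D c a1 a2 a3 a4 a5 a6 a7 a8 hc =>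
    glueEB hd hε N1 (hN c hc) X Z f ω B z D a1 a2 a3 a4 a5 a6 a7 a8⟩

theorem glueEn (q : Qn) : Stm.QEc fun _ => True := glueEc fun d Q hd hQ ε hε =>
  let ⟨N, N1, hN⟩ := q d Q hd hQ ε hε
  ⟨N, N1, fun c _ => hN c⟩

theorem glueEb {c : ℕ} (q : Qb c) : Stm.QEc (· = c) := glueEc fun d Q hd hQ ε hε =>
  let ⟨N, N1, hN⟩ := q d Q hd hQ ε hε
  ⟨N, N1, fun _ e => e ▸ hN⟩

end Vale.Agent.P283R.Et
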