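import Vale.Agent.P283R.Et.Pl
import Vale.Agent.P283R.Tp.Hrt
import Vale.Agent.P283R.Tp.Ber
import Vale.Agent.P283R.Tp.Ram

/-!
# P283R: descent of complements along an etale local homomorphism
-/

set_option linter.all false

open Set
open Vale.Agent.P297Z

noncomputable section

namespace Vale.Agent.P283R.Et

open Vale.Agent.P287D

variable {K K' : Type} [Field K] [Field K'] [Algebra ℂ K] [Algebra ℂ K'] {d : ℕ}
  {A : Subalgebra ℂ K} {χ : A →ₐ[ℂ] ℂ} {P : Pl K} {g : K}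

theorem thr_lo (h : Thr A χ P) (hg : g ∈ Lo A (RingHom.ker χ)) : g ∈ P.ring := by
  obtain ⟨s, t, ht, rfl⟩ := hg
  obtain ⟨t0, t1⟩ := ord_of_rd (h.1 t t.2) fun e => ht (h.2 t e)
  rw [div_eq_mul_inv]
  exact mul_mem (h.1 s s.2) ((Pl.ord_eq_zero_iff P.toPlace t0).1 t1).2

theorem lo_self (a : A) : (a : K) ∈ Lo A (RingHom.ker χ) := ⟨a, 1, by simp, by simp⟩

theorem thr_of (h : ∀ g ∈ Lo A (RingHom.ker χ), g ∈ P.ring) : Thr A χ P := by
  refine ⟨fun a ha => h a (lo_self ⟨a, ha⟩), fun a e => by_contra fun c => ?_⟩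
  have a0 : (a : K) ≠ 0 := fun z => c (by rw [(Subtype.ext z : a = 0), map_zero])
  have h1 := Pl.ord_nonneg_of_mem P.toPlace (h _ ⟨1, a, c, rfl⟩)
  have h2 := ((Bm.rd_zero_iff P (h a (lo_self a))).1 e).resolve_left a0
  rw [OneMemClass.coe_one, one_div, Pl.ord_inv] at h1
  omega

theorem pd_of (h : Thr A χ P) (h' : Prm A P) : PD A P := by
  obtain ⟨q, hq⟩ := Tq.exists_cen h.1
  refine ⟨q, hq, fun a ha => ?_⟩
  obtain ⟨s, hs, t, ht, t0, e⟩ := h' a ha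
  exact ⟨⟨s, hs⟩, ⟨t, ht⟩, fun c => t0 ((hq ⟨t, ht⟩).2.1 c), e⟩

theorem har (hA : Aff d A) (hn : IsIntegrallyClosed A)
    (h : ∀ P, Thr A χ P → Prm A P → g ∈ P.ring) : g ∈ Lo A (RingHom.ker χ) :=
  (hrt d K A hA hn).2.2.1 _ (RingHom.ker_isPrime χ) g fun R ⟨q, le, c, k⟩ =>
    h R ⟨fun a ha => (c ⟨a, ha⟩).1, fun a e => le ((c a).2.2 e)⟩ fun a ha =>
      let ⟨s, t, ht, e⟩ := k a ha
      ⟨s, s.2, t, t.2, fun z => ht ((c t).2.2 z), e⟩

theorem sep {R : Pl K} (h : ∀ a ∈ A, a ∈ R.ring) (h' : Prm A P) (hP : ∀ a ∈ A, a ∈ P.ring)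
    (ne : R ≠ P) : ∃ a ∈ A, a ≠ 0 ∧ P.ord a = 0 ∧ 0 < R.ord a := by
  by_contra c
  simp only [not_exists, not_and, not_lt] at c
  refine ne (Pb.pl_ext (congrArg _ (Pl.eq_of_le' (v := P.toPlace) fun x hx => ?_)).symm)
  obtain ⟨s, hs, t, ht, t0, rfl⟩ := h' x hx
  obtain ⟨t1, t2⟩ := ord_of_rd (hP t ht) t0
  rw [div_eq_mul_inv]
  exact mul_mem (h s hs) ((Pl.ord_eq_zero_iff R.toPlace t1).1
    (le_antisymm (c t ht t1 t2) (Pl.ord_nonneg_of_mem _ (h t ht)))).2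

/-- approximation -/
theorem apx (hA : Aff d A) (hn : IsIntegrallyClosed A) {c : Pl K → ℤ}
    (hc : {R | PD A R ∧ c R ≠ 0}.Finite) (h : Thr A χ P) (h' : Prm A P) :
    ∃ b : K, b ≠ 0 ∧ P.ord b = c P ∧ ∀ R, Thr A χ R → Prm A R → c R ≤ R.ord b := by
  classical
  have x0 := zpow_ne_zero (c P) P.t_ne
  have fin : {R | Thr A χ R ∧ Prm A R ∧ R.ord (P.t ^ c P) < c R}.Finite :=
    (hc.union ((hrt d K A hA hn).1 (P.t ^ c P))).subset fun R ⟨a, b, e⟩ => by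
      by_cases z : c R = 0
      · exact .inr ⟨pd_of a b, by omega⟩
      · exact .inl ⟨pd_of a b, z⟩
  have k : ∀ T : Finset (Pl K), (∀ R ∈ T, Thr A χ R ∧ R ≠ P) → ∃ a ∈ A, a ≠ 0 ∧ P.ord a = 0 ∧
      ∀ R ∈ T, c R - R.ord (P.t ^ c P) ≤ R.ord a := fun T => by
    induction T using Finset.induction_on with
    | empty => exact fun _ => ⟨1, one_mem _, one_ne_zero, Pl.ord_one _, by simp⟩
    | insert R T _ ih =>
      intro hT
      obtain ⟨a, a1, a2, a3, a4⟩ := ih fun Q q => hT Q (Finset.mem_insert_of_mem q)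
      obtain ⟨r1, r2⟩ := hT R (Finset.mem_insert_self _ _)
      obtain ⟨b, b1, b2, b3, b4⟩ := sep r1.1 h' h.1 r2
      let n := (c R - R.ord (P.t ^ c P)).toNat
      refine ⟨a * b ^ n, mul_mem a1 (pow_mem b1 _), mul_ne_zero a2 (pow_ne_zero _ b2), by
        rw [Pl.ord_mul _ a2 (pow_ne_zero _ b2), Pl.ord_pow, a3, b3]; simp, fun Q q => ?_⟩
      rw [Pl.ord_mul _ a2 (pow_ne_zero _ b2), Pl.ord_pow]
      have q1 := Pl.ord_nonneg_of_mem Q.toPlace ((hT Q q).1.1 a a1)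
      have q2 := Pl.ord_nonneg_of_mem Q.toPlace ((hT Q q).1.1 b b1)
      rcases Finset.mem_insert.1 q with rfl | q
      · have := Int.self_le_toNat (c Q - Q.ord (P.t ^ c P))
        nlinarith [Int.natCast_nonneg n]
      · have := a4 Q q
        nlinarith [Int.natCast_nonneg n]
  obtain ⟨a, a1, a2, a3, a4⟩ := k fin.toFinset fun R r => by
    obtain ⟨r1, -, r2⟩ := fin.mem_toFinset.1 r
    refine ⟨r1, ?_⟩
    rintro rfl
    rw [Pl.ord_t_zpow] at r2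
    exact r2.false
  refine ⟨P.t ^ c P * a, mul_ne_zero x0 a2, by rw [Pl.ord_mul _ x0 a2, a3, P.ord_t_zpow, add_zero],
    fun R r1 r2 => ?_⟩
  rw [Pl.ord_mul _ x0 a2]
  by_cases z : R.ord (P.t ^ c P) < c R
  · have := a4 R (fin.mem_toFinset.2 ⟨r1, r2, z⟩)
    omega
  · have := Pl.ord_nonneg_of_mem R.toPlace (r1.1 a a1)
    omega

/-- a divisor is cut out by finitely many functions -/
theorem gens (hA : Aff d A) (hn : IsIntegrallyClosed A) {c : Pl K → ℤ}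
    (hc : {R | PD A R ∧ c R ≠ 0}.Finite) : ∃ s : Finset K, s.Nonempty ∧
      (∀ b ∈ s, b ≠ 0 ∧ ∀ R, Thr A χ R → Prm A R → c R ≤ R.ord b) ∧
      ∀ R, Thr A χ R → Prm A R → ∃ b ∈ s, R.ord b = c R := by
  classical
  by_cases e : ∃ P, Thr A χ P ∧ Prm A P
  swap
  · exact ⟨{1}, by simp, fun b hb => ⟨by simp [Finset.mem_singleton.1 hb],
      fun R a b => (e ⟨R, a, b⟩).elim⟩, fun R a b => (e ⟨R, a, b⟩).elim⟩
  obtain ⟨P, p1, p2⟩ := e
  choose! b b0 b1 b2 using fun (P : Pl K) (h : Thr A χ P) (h' : Prm A P) => apx hA hn hc h h'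
  have fin : {R | Thr A χ R ∧ Prm A R ∧ R.ord (b P) ≠ c R}.Finite :=
    (hc.union ((hrt d K A hA hn).1 (b P))).subset fun R ⟨a, b, e⟩ => by
      by_cases z : c R = 0
      · exact .inr ⟨pd_of a b, z ▸ e⟩
      · exact .inl ⟨pd_of a b, z⟩
  refine ⟨insert (b P) (fin.toFinset.image b), by simp, fun x hx => ?_, fun R r1 r2 => ?_⟩
  · rcases Finset.mem_insert.1 hx with rfl | hx
    · exact ⟨b0 P p1 p2, b2 P p1 p2⟩
    · obtain ⟨R, r, rfl⟩ := Finset.mem_image.1 hx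
      obtain ⟨r1, r2, -⟩ := fin.mem_toFinset.1 r
      exact ⟨b0 R r1 r2, b2 R r1 r2⟩
  · by_cases z : R.ord (b P) = c R
    · exact ⟨_, Finset.mem_insert_self _ _, z⟩
    · exact ⟨b R, Finset.mem_insert_of_mem (Finset.mem_image_of_mem _
        (fin.mem_toFinset.2 ⟨r1, r2, z⟩)), b1 R r1 r2⟩

variable [Algebra K K'] {A' : Subalgebra ℂ K'} {χ' : A' →ₐ[ℂ] ℂ}

/-- the local ring at `χ'` is flat and unramified over the local ring at `χ` -/
def Etl (A : Subalgebra ℂ K) (χ : A →ₐ[ℂ] ℂ) (A' : Subalgebra ℂ K') (χ' : A' →ₐ[ℂ] ℂ) : Prop :=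
  ∃ (O O' : Type) (_ : CommRing O) (_ : CommRing O') (_ : IsLocalRing O) (_ : IsLocalRing O')
    (j : O →+* K) (j' : O' →+* K') (f : O →+* O'), Function.Injective j ∧ Function.Injective j' ∧
    (∀ a, j' (f a) = algebraMap K K' (j a)) ∧ f.Flat ∧ f.FormallyUnramified ∧ f.EssFiniteType ∧
    IsLocalHom f ∧ range j = Lo A (RingHom.ker χ) ∧ range j' = Lo A' (RingHom.ker χ')

/-- the consequences of `Etl` -/
structure Et3 (A : Subalgebra ℂ K) (χ : A →ₐ[ℂ] ℂ) (A' : Subalgebra ℂ K') (χ' : A' →ₐ[ℂ] ℂ) :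
    Prop where
  dn : ∀ P' P, Lies (algebraMap K K') P' P → Thr A' χ' P' →
    Thr A χ P ∧ (Prm A' P' → Prm A P ∧ P'.ord (algebraMap K K' P.t) = 1)
  up : ∀ P, Thr A χ P → ∃ P', Lies (algebraMap K K') P' P ∧ Thr A' χ' P'
  col : ∀ (s : Finset K) (φ : K'), s.Nonempty → (∀ b ∈ s, b ≠ 0) →
    (∀ b ∈ s, φ * algebraMap K K' b ∈ Lo A' (RingHom.ker χ')) →
    ∃ (n : ℕ) (ψ : Fin n → K) (y : Fin n → K'), (∀ j, y j ∈ Lo A' (RingHom.ker χ')) ∧
      φ = ∑ j, algebraMap K K' (ψ j) * y j ∧ ∀ j, ∀ b ∈ s, ψ j * b ∈ Lo A (RingHom.ker χ)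

theorem ov_iff {O : Type} [CommRing O] [Algebra O K]
    (h : range (algebraMap O K) = Lo A (RingHom.ker χ)) : Ov O P ↔ Thr A χ P :=
  ⟨fun k => thr_of fun g hg => by obtain ⟨a, rfl⟩ := h.ge hg; exact k a,
    fun k a => thr_lo k (h.le ⟨a, rfl⟩)⟩

theorem pm_iff {O : Type} [CommRing O] [Algebra O K]
    (h : range (algebraMap O K) = Lo A (RingHom.ker χ)) (k : Thr A χ P) : Pm O P ↔ Prm A P := by
  refine ⟨fun m g hg => ?_, fun m g hg => ?_⟩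
  · obtain ⟨a, b, b0, e⟩ := m g hg
    obtain ⟨s, t, ht, e1⟩ := h.le ⟨a, rfl⟩
    obtain ⟨u, v, hv, e2⟩ := h.le ⟨b, rfl⟩
    obtain ⟨t0, t1⟩ := ord_of_rd (k.1 t t.2) fun e => ht (k.2 t e)
    obtain ⟨v0, v1⟩ := ord_of_rd (k.1 v v.2) fun e => hv (k.2 v e)
    obtain ⟨b1, b2⟩ := ord_of_rd ((ov_iff h).2 k b) b0
    rw [e2] at b1 b2
    have u0 : (u : K) ≠ 0 := fun z => b1 (by rw [z, zero_div])
    rw [Pl.ord_div _ u0 v0, v1, sub_zero] at b2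
    refine ⟨s * v, mul_mem s.2 v.2, t * u, mul_mem t.2 u.2, fun z => ?_, by
      rw [e, e1, e2]; field_simp⟩
    rw [Bm.rd_zero_iff P (k.1 _ (mul_mem t.2 u.2)), or_iff_right (mul_ne_zero t0 u0),
      Pl.ord_mul _ t0 u0] at z
    omega
  · obtain ⟨s, hs, t, ht, t0, e⟩ := m g hg
    obtain ⟨a, ha⟩ := h.ge (lo_self ⟨s, hs⟩)
    obtain ⟨b, hb⟩ := h.ge (lo_self ⟨t, ht⟩)
    exact ⟨a, b, hb ▸ t0, by rw [ha, hb, e]⟩

variable [IsScalarTower ℂ K K']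

theorem Etl.et3 (h : Etl A χ A' χ') (hA : Aff d A) (hK' : FF K' d) : Et3 A χ A' χ' := by
  obtain ⟨O, O', _, _, _, _, j, j', f, hj, hj', e, f1, f2, f3, f4, r, r'⟩ := h
  let _ := j.toAlgebra
  let _ := j'.toAlgebra
  let _ := f.toAlgebra
  let _ : Algebra O K' := (j'.comp f).toAlgebra
  have : IsScalarTower O K K' := .of_algebraMap_eq e
  have : IsScalarTower O O' K' := .of_algebraMap_eq fun _ => rfl
  have : Module.Flat O O' := f1
  have : Algebra.FormallyUnramified O O' := f2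
  have : Algebra.EssFiniteType O O' := f3
  have : IsLocalHom (algebraMap O O') := f4
  have : IsDomain O := hj.isDomain j
  have : FaithfulSMul O K := (faithfulSMul_iff_algebraMap_injective O K).2 hj
  have : IsFractionRing O K := IsFractionRing.of_field O K fun x => by
    obtain ⟨s, t, e⟩ := hA.fr x
    obtain ⟨a, ha⟩ := r.ge (lo_self s)
    obtain ⟨b, hb⟩ := r.ge (lo_self t)
    exact ⟨a, b, by rw [e, ← ha, ← hb]; rfl⟩
  have := Pb.fin_of_ff hA.ff hK'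
  refine ⟨fun P' P l k => ?_, fun P k => ?_, fun s φ ⟨b, hb⟩ s0 k => ?_⟩
  · have o := (ov_iff r').2 k
    have p := (ov_iff r).1 (ov_down l o)
    exact ⟨p, fun m => ⟨(pm_iff r p).1 (pm_down hj' l o ((pm_iff r' k).2 m)),
      e_one (O := O) hj' l o ((pm_iff r' k).2 m)⟩⟩
  · obtain ⟨P', l, o⟩ := up (O' := O') (K' := K') hj' ((ov_iff r).2 k)
    exact ⟨P', l, (ov_iff r').1 o⟩
  · obtain ⟨n, ψ, y, e1, e2⟩ := col (O := O) hj' (I := s) Subtype.val (i₀ := ⟨b, hb⟩) (s0 b hb)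
      (φ := φ) fun i => r'.ge (k i i.2)
    exact ⟨n, ψ, fun i => j' (y i), fun i => r'.le ⟨_, rfl⟩, e1, fun i b hb => r.le (e2 i ⟨b, hb⟩)⟩

end Vale.Agent.P283R.Et
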