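import Mathlib

/-!
# P283R: flat extensions inside fields
-/

set_option linter.all false

open Set

noncomputable section

namespace Vale.Agent.P283R.Et

variable {O O' K K' : Type} [CommRing O] [IsDomain O] [CommRing O'] [Field K] [Field K']
  [Algebra O K] [IsFractionRing O K] [Algebra O' K'] [Algebra O O'] [Algebra K K'] [Algebra O K']
  [IsScalarTower O K K'] [IsScalarTower O O' K'] [Module.Flat O O']

theorem sq (a : O) : algebraMap O' K' (algebraMap O O' a) = algebraMap K K' (algebraMap O K a) := by
  rw [← IsScalarTower.algebraMap_apply, ← IsScalarTower.algebraMap_apply]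

/-- the solutions of a linear system come from below -/
theorem gl (hj : Function.Injective (algebraMap O' K')) {I J : Type} [Fintype I] [Finite J]
    (c : J → I → K) (x : I → O')
    (h : ∀ k, ∑ i, algebraMap K K' (c k i) * algebraMap O' K' (x i) = 0) :
    ∃ (n : ℕ) (α : I → Fin n → O) (y : Fin n → O'),
      (∀ i, x i = ∑ j, algebraMap O O' (α i j) * y j) ∧
      ∀ k j, ∑ i, c k i * algebraMap O K (α i j) = 0 := by
  classical
  have := Fintype.ofFinite J
  obtain ⟨w, hw⟩ := IsLocalization.exist_integer_multiples_of_finite (nonZeroDivisors O)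
    (fun p : J × I => c p.1 p.2)
  choose u hu using hw
  have hu' : ∀ k i, algebraMap O K (u (k, i)) = algebraMap O K w * c k i := fun k i => by
    rw [hu, Algebra.smul_def]
  have w0 : algebraMap O K w ≠ 0 := IsFractionRing.to_map_ne_zero_of_mem_nonZeroDivisors w.2
  let F : (J → O) →ₗ[O] (I → O) := Fintype.linearCombination O fun k i => u (k, i)
  let X : (I → O) →ₗ[O] O' := Fintype.linearCombination O x
  have e : X ∘ₗ F = 0 := (Pi.basisFun O J).ext fun k => hj (by
    simp only [F, X, LinearMap.comp_apply, Pi.basisFun_apply, Fintype.linearCombination_apply_single,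
      one_smul, LinearMap.zero_apply, map_zero]
    rw [Fintype.linearCombination_apply, map_sum]
    simp only [Algebra.smul_def, map_mul, sq (K := K), hu', mul_assoc]
    rw [← Finset.mul_sum, h, mul_zero])
  obtain ⟨n, a, y, e1, e2⟩ := Module.Flat.exists_factorization_of_comp_eq_zero_of_free e
  refine ⟨n, fun i j => a (Pi.single i 1) j, fun j => y (Finsupp.single j 1), fun i => ?_,
    fun k j => mul_left_cancel₀ w0 ?_⟩
  · have := LinearMap.congr_fun e1 (Pi.single i 1)
    simp only [X, Fintype.linearCombination_apply_single, one_smul, LinearMap.comp_apply] at this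
    rw [this]
    conv_lhs => rw [← Finsupp.univ_sum_single (a (Pi.single i 1))]
    rw [map_sum]
    refine Finset.sum_congr rfl fun j _ => ?_
    rw [← Algebra.smul_def, ← map_smul, Finsupp.smul_single, smul_eq_mul, mul_one]
  · have := LinearMap.congr_fun e2 (Pi.single k 1)
    simp only [F, LinearMap.comp_apply, Fintype.linearCombination_apply_single, one_smul,
      LinearMap.zero_apply] at this
    have e3 : (fun i => u (k, i)) = ∑ i, u (k, i) • (Pi.single i 1 : I → O) := by
      ext i
      simp [Pi.single_apply]
    rw [e3, map_sum] at this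
    have e4 := congrArg (fun v : Fin n →₀ O => algebraMap O K (v j)) this
    simp only [map_smul, Finsupp.finsetSum_apply, Finsupp.smul_apply, smul_eq_mul, map_sum, map_mul,
      hu', Finsupp.zero_apply, map_zero, mul_assoc] at e4
    rw [Finset.mul_sum, e4, mul_zero]

/-- intersections of principal fractional ideals -/
theorem col (hj : Function.Injective (algebraMap O' K')) {I : Type} [Finite I] (b : I → K) {i₀ : I}
    (b0 : b i₀ ≠ 0) {φ : K'} (h : ∀ i, φ * algebraMap K K' (b i) ∈ range (algebraMap O' K')) :
    ∃ (n : ℕ) (ψ : Fin n → K) (y : Fin n → O'),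
      φ = ∑ j, algebraMap K K' (ψ j) * algebraMap O' K' (y j) ∧
      ∀ j i, ψ j * b i ∈ range (algebraMap O K) := by
  classical
  have := Fintype.ofFinite I
  choose x hx using h
  obtain ⟨n, α, y, e1, e2⟩ := gl (O := O) hj
    (fun k i : I => (if i = k then b i₀ else 0) - if i = i₀ then b k else 0) x fun k => by
      simp only [map_sub, sub_mul, Finset.sum_sub_distrib, apply_ite (algebraMap K K'), map_zero,
        ite_mul, zero_mul, Finset.sum_ite_eq', Finset.mem_univ, if_true, hx]
      ring
  refine ⟨n, fun j => algebraMap O K (α i₀ j) / b i₀, y, ?_, fun j i => ⟨α i j, ?_⟩⟩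
  · have b1 : algebraMap K K' (b i₀) ≠ 0 := (map_ne_zero _).2 b0
    rw [(eq_div_iff b1).2 (hx i₀).symm, e1, map_sum, Finset.sum_div]
    refine Finset.sum_congr rfl fun j _ => ?_
    rw [map_mul, sq (K := K), map_div₀]
    ring
  · have := e2 i j
    simp only [sub_mul, Finset.sum_sub_distrib, ite_mul, zero_mul, Finset.sum_ite_eq',
      Finset.mem_univ, if_true] at this
    field_simp
    linear_combination this

/-- an ideal which contracts into the maximal ideal stays proper -/
theorem prp [IsLocalRing O] [IsLocalRing O'] [IsLocalHom (algebraMap O O')]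
    (hj : Function.Injective (algebraMap O' K')) (M : Submodule O K)
    (hM : ∀ a : O, algebraMap O K a ∈ M → ¬ IsUnit a) {n : ℕ} {c : Fin n → K} (hc : ∀ i, c i ∈ M)
    (x : Fin n → O') : ∑ i, algebraMap K K' (c i) * algebraMap O' K' (x i) ≠ 1 := fun h => by
  obtain ⟨k, α, y, e1, e2⟩ := gl (O := O) hj (J := Unit) (I := Option (Fin n))
    (fun _ i => i.elim (-1) c) (fun i => i.elim 1 x) fun _ => by
      simp only [Fintype.sum_option, Option.elim, map_neg, map_one, h]
      ring
  have e3 := e1 none
  refine (IsLocalRing.maximalIdeal.isMaximal O').ne_top ((Ideal.eq_top_iff_one _).2 ?_)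
  simp only [Option.elim] at e3
  rw [e3]
  refine Ideal.sum_mem _ fun j _ => Ideal.mul_mem_right _ _ ?_
  refine fun u => hM (α none j) ?_ (IsLocalHom.map_nonunit _ u)
  have e4 := e2 () j
  simp only [Fintype.sum_option, Option.elim, neg_mul, one_mul] at e4
  rw [neg_add_eq_zero.1 e4]
  refine M.sum_mem fun i _ => ?_
  rw [mul_comm, ← Algebra.smul_def]
  exact M.smul_mem _ (hc i)

end Vale.Agent.P283R.Et
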