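import Vale.Agent.P283R.Et.Fl
import Vale.Agent.P283R.Tp.Top0
import Vale.Agent.P287D.Bm.Pl

/-!
# P283R: places along a flat unramified local homomorphism
-/

set_option linter.all false

open Set
open Vale.Agent.P297Z

noncomputable section

namespace Vale.Agent.P283R.Et

open Vale.Agent.P287D

section defs

variable (O : Type) {K : Type} [CommRing O] [Field K] [Algebra ℂ K] [Algebra O K]

/-- the centre of `P` lies on `Spec O` -/
def Ov (P : Pl K) : Prop := ∀ a : O, algebraMap O K a ∈ P.ring

/-- `P` is a prime divisor of `Spec O` -/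
def Pm (P : Pl K) : Prop :=
  ∀ g ∈ P.ring, ∃ a b : O, P.rd (algebraMap O K b) ≠ 0 ∧ g = algebraMap O K a / algebraMap O K b

end defs

variable {O O' K K' : Type} [CommRing O] [IsDomain O] [CommRing O'] [Field K] [Field K']
  [Algebra ℂ K] [Algebra ℂ K'] [Algebra O K] [IsFractionRing O K] [Algebra O' K'] [Algebra O O']
  [Algebra K K'] [Algebra O K'] [IsScalarTower O K K'] [IsScalarTower O O' K'] [Module.Flat O O']
  {P : Pl K} {P' : Pl K'}

theorem ord_of_rd {f : K} (h : f ∈ P.ring) (e : P.rd f ≠ 0) : f ≠ 0 ∧ P.ord f = 0 := by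
  have h1 := mt (Bm.rd_zero_iff P h).2 e
  have h2 := Pl.ord_nonneg_of_mem P.toPlace h
  rw [not_or] at h1
  exact ⟨h1.1, by omega⟩

theorem ov_down (l : Lies (algebraMap K K') P' P) (h : Ov O' P') : Ov O P := fun a =>
  (l _).2 (sq (O' := O') (K := K) (K' := K') a ▸ h _)

/-- some term is at most as small as the sum -/
theorem exists_le {n : ℕ} {c y : Fin n → K} (hy : ∀ j, y j ∈ P.ring) (h : ∑ j, c j * y j ≠ 0) :
    ∃ j, c j ≠ 0 ∧ P.ord (c j) ≤ P.ord (∑ j, c j * y j) := by
  by_contra k
  simp only [not_exists, not_and, not_le] at k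
  have := (P.mem_sub.1 ((P.sub (-(P.ord (∑ j, c j * y j) + 1 : ℤ))).sum_mem (t := Finset.univ)
    (f := fun j => c j * y j) fun j _ => P.mem_sub.2 (or_iff_not_imp_left.2 fun e => by
      have e1 := k j (left_ne_zero_of_mul e)
      have e2 := Pl.ord_nonneg_of_mem P.toPlace (hy j)
      rw [Pl.ord_mul _ (left_ne_zero_of_mul e) (right_ne_zero_of_mul e)]
      exact_mod_cast (by omega)))).resolve_left h
  push_cast at this
  linarith

theorem pm_down (hj : Function.Injective (algebraMap O' K')) (l : Lies (algebraMap K K') P' P)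
    (h : Ov O' P') (h' : Pm O' P') : Pm O P := fun g hg => by
  obtain ⟨a, b, b0, e⟩ := h' _ ((l g).1 hg)
  obtain ⟨b1, b2⟩ := ord_of_rd (h b) b0
  obtain ⟨n, ψ, y, e1, e2⟩ := col (O := O) hj (I := Bool) (fun i => cond i g 1) (i₀ := false)
    one_ne_zero (φ := algebraMap O' K' b) fun i => by
      cases i
      · exact ⟨b, by simp⟩
      · exact ⟨a, by rw [cond_true, e, mul_div_cancel₀ _ b1]⟩
  obtain ⟨j, j0, j1⟩ := exists_le (P := P') (fun j => h (y j)) (e1 ▸ b1)
  obtain ⟨u, hu⟩ := e2 j false
  obtain ⟨v, hv⟩ := e2 j true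
  rw [cond_false, mul_one] at hu
  rw [cond_true] at hv
  have j2 : ψ j ≠ 0 := (map_ne_zero _).1 j0
  refine ⟨v, u, fun z => ?_, by rw [hu, hv, mul_div_cancel_left₀ _ j2]⟩
  rw [Bm.rd_zero_iff P (ov_down l h u), hu, or_iff_right j2, ← l.ord_pos_iff] at z
  rw [← e1, b2] at j1
  omega

theorem e_one [Algebra.FormallyUnramified O O'] [Algebra.EssFiniteType O O']
    (hj : Function.Injective (algebraMap O' K')) (l : Lies (algebraMap K K') P' P)
    (h : Ov O' P') (h' : Pm O' P') : P'.ord (algebraMap K K' P.t) = 1 := by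
  let _ : Algebra O P.ring := ((algebraMap O K).codRestrict P.ring (ov_down l h)).toAlgebra
  let _ : Algebra O' P'.ring := ((algebraMap O' K').codRestrict P'.ring h).toAlgebra
  let _ : Algebra P.ring P'.ring := (((algebraMap K K').comp P.ring.subtype).codRestrict P'.ring
    fun a => (l a).1 a.2).toAlgebra
  let _ : Algebra O P'.ring := ((algebraMap O' P'.ring).comp (algebraMap O O')).toAlgebra
  have : IsScalarTower O O' P'.ring := .of_algebraMap_eq fun _ => rfl
  have : IsScalarTower O P.ring P'.ring := .of_algebraMap_eq fun a => Subtype.ext (sq a)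
  let M : Submonoid O' := (IsUnit.submonoid P'.ring).comap (algebraMap O' P'.ring)
  have : IsLocalization M P'.ring := by
    refine ⟨fun y => y.2, fun z => ?_, fun {x y} e => ⟨1, by rw [hj (congrArg Subtype.val e)]⟩⟩
    obtain ⟨a, b, b0, e⟩ := h' z z.2
    obtain ⟨b1, b2⟩ := ord_of_rd (h b) b0
    refine ⟨⟨a, b, ?_⟩, Subtype.ext ?_⟩
    · by_contra c
      have := (Pl.mem_maximalIdeal_iff P'.toPlace ⟨_, h b⟩).1 c
      exact this.elim b1 (by rw [b2]; exact lt_irrefl _)
    · exact (eq_div_iff b1).1 e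
  have := Algebra.FormallyUnramified.of_isLocalization (Rₘ := P'.ring) M
  have := Algebra.EssFiniteType.of_isLocalization P'.ring M
  have := Algebra.FormallyUnramified.comp O O' P'.ring
  have := Algebra.EssFiniteType.comp O O' P'.ring
  have := Algebra.FormallyUnramified.of_restrictScalars O P.ring P'.ring
  have := Algebra.EssFiniteType.of_comp O P.ring P'.ring
  have : IsLocalHom (algebraMap P.ring P'.ring) := ⟨fun a u => by
    by_contra c
    refine (Pl.mem_maximalIdeal_iff P'.toPlace (algebraMap P.ring P'.ring a)).2 ?_ u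
    exact ((Pl.mem_maximalIdeal_iff P.toPlace a).1 c).imp
      (fun e => (congrArg (algebraMap K K') e).trans (map_zero _)) (l.ord_pos_iff _).2⟩
  have e := Algebra.FormallyUnramified.map_maximalIdeal (R := P.ring) (S := P'.ring)
  have t0 := (map_ne_zero (algebraMap K K')).2 P.t_ne
  have tm : P'.t ∈ P'.ring := (Pl.ord_nonneg_iff _ P'.t_ne).1 (by rw [P'.ord_t]; omega)
  have k : ∀ z ∈ (IsLocalRing.maximalIdeal P.ring).map (algebraMap P.ring P'.ring),
      (z : K') / algebraMap K K' P.t ∈ P'.ring := fun z hz => by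
    induction hz using Submodule.span_induction with
    | mem z hz =>
      obtain ⟨a, ha, rfl⟩ := hz
      change algebraMap K K' a / _ ∈ _
      rw [← map_div₀, ← l]
      rcases (Pl.mem_maximalIdeal_iff P.toPlace a).1 ha with c | c
      · rw [c, zero_div]; exact zero_mem _
      · have a0 : (a : K) ≠ 0 := fun e => by simp [e] at c
        rw [← Pl.ord_nonneg_iff _ (div_ne_zero a0 P.t_ne), Pl.ord_div _ a0 P.t_ne, P.ord_t]
        omega
    | zero => simp
    | add u v _ _ hu hv =>
      change (u + v : K') / _ ∈ _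
      rw [add_div]; exact add_mem hu hv
    | smul c u _ hu =>
      change (c * u : K') / _ ∈ _
      rw [mul_div_assoc]; exact mul_mem c.2 hu
  have k1 := Pl.ord_nonneg_of_mem _ (k ⟨_, tm⟩ (e ▸ (Pl.mem_maximalIdeal_iff P'.toPlace ⟨_, tm⟩).2
    (.inr (by rw [P'.ord_t]; omega))))
  have k2 := l.e_pos
  change 0 ≤ P'.ord (P'.t / _) at k1
  rw [Pl.ord_div _ P'.t_ne t0, P'.ord_t] at k1
  omega

/-- a place above through the given point -/
theorem up [IsScalarTower ℂ K K'] [FiniteDimensional K K'] [IsLocalRing O] [IsLocalRing O']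
    [IsLocalHom (algebraMap O O')] (hj : Function.Injective (algebraMap O' K')) (h : Ov O P) :
    ∃ P' : Pl K', Lies (algebraMap K K') P' P ∧ Ov O' P' := by
  let T : Submonoid K' := P.ring.toSubring.toSubmonoid.map (algebraMap K K')
  let C := (Algebra.adjoin O' (T : Set K')).toSubring
  have h2 : ∀ r ∈ P.ring, algebraMap K K' r ∈ C := fun r hr => Algebra.subset_adjoin ⟨r, hr, rfl⟩
  have t0 := (map_ne_zero (algebraMap K K')).2 P.t_ne
  have tm : P.t ∈ P.ring := (Pl.ord_nonneg_iff _ P.t_ne).1 (by rw [P.ord_t]; omega)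
  let M : Submodule O K :=
    { carrier := {f | f / P.t ∈ P.ring}
      zero_mem' := by simp
      add_mem' := fun {u v} hu hv => by
        change (u + v) / P.t ∈ P.ring
        rw [add_div]; exact add_mem hu hv
      smul_mem' := fun c u hu => by
        change (c • u) / P.t ∈ P.ring
        rw [Algebra.smul_def, mul_div_assoc]; exact mul_mem (h c) hu }
  have hM : ∀ a : O, algebraMap O K a ∈ M → ¬ IsUnit a := fun a ha u => by
    obtain ⟨b, hb⟩ := u.exists_left_inv
    have := Pl.ord_nonneg_of_mem P.toPlace (mul_mem (h b) ha)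
    rw [← mul_div_assoc, ← map_mul, hb, map_one, one_div, Pl.ord_inv, P.ord_t] at this
    omega
  obtain ⟨V, v1, v2⟩ := Ideal.image_subset_nonunits_valuationSubring
    (Ideal.span {(⟨_, h2 _ tm⟩ : C)}) fun e => by
      obtain ⟨u, hu⟩ := (Ideal.span_singleton_eq_top.1 e).exists_left_inv
      have u1 : (u : K') ∈ Subalgebra.toSubmodule (Algebra.adjoin O' (T : Set K')) := u.2
      rw [Algebra.adjoin_eq_span, Submonoid.closure_eq, Submodule.mem_span_set'] at u1
      obtain ⟨n, x, c, e⟩ := u1
      choose r hr er using fun i => (c i).2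
      refine prp (O := O) hj M hM (c := fun i => r i * P.t) (fun i => ?_) x ?_
      · change r i * P.t / P.t ∈ P.ring
        rw [mul_div_cancel_right₀ _ P.t_ne]
        exact hr i
      · have hu' : (u : K') * algebraMap K K' P.t = 1 := congrArg Subtype.val hu
        rw [← hu', ← e, Finset.sum_mul]
        refine Finset.sum_congr rfl fun i _ => ?_
        rw [map_mul, Algebra.smul_def, ← er]
        change _ = _ * algebraMap K K' (r i) * _
        ring
  have v3 : (algebraMap K K' P.t)⁻¹ ∉ V :=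
    (V.inv_mem_nonunits_iff.1 (by
      rw [inv_inv]; exact v2 ⟨_, Ideal.subset_span rfl, rfl⟩)).resolve_left (inv_ne_zero t0)
  have v4 : P.ring = V.comap (algebraMap K K') :=
    Pl.ring_eq_of_le (fun r hr => v1 (h2 r hr)) fun e => v3 (by
      rw [← map_inv₀]
      exact show P.t⁻¹ ∈ V.comap (algebraMap K K') from e ▸ ValuationSubring.mem_top _)
  obtain ⟨R, hR⟩ := (Pb.fund0 (K' := K') P).2.1 ⟨V, v4.symm⟩
  have : R.1.ring = V := congrArg P298.H416.Ovr.val hR
  exact ⟨R.1, R.2, fun a => this ▸ v1 (Subalgebra.algebraMap_mem _ a)⟩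

end Vale.Agent.P283R.Et
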